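import Vale.Agent.P011.D4Y.H691.TopP
import Vale.Agent.P011.D4Y.H547.Part

/-!
Block D4Y (helper691): openness at the bad real places.
-/

open NumberField Topology Filter

set_option linter.unusedSectionVars false

namespace Vale.Agent.P011.D4Y

open Vale.Agent.P011.MPQ Vale.Agent.P011.D4 Vale.Agent.P011.D4.Oct Vale.Agent.P011.E6
open Vale.Agent.P011.D4X

section fin

variable {k L E : Type} [Field k] [NumberField k] [Field L] [NumberField L] [Field E]
  [Algebra k L] [Algebra k E] [Algebra L E]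
  [IsScalarTower k L E] [NeZero (2 : E)] {ρ σ ι : E ≃ₐ[k] E} {α : E}
  {a b c : kˣ} {q : Lˣ} (H : HyI ρ σ ι α a b c q)

include H

/-- **D4Y.** The elements of `GTI` close to one at the real places where the group is isotropic
with nonsplit Tits class lie in every subgroup of finite index. -/
theorem open_top (hX : ∀ τ : k →+* ℝ, τ a < 0 → τ b < 0 ∧ τ c < 0) (ho : HOdd a q) :
    ∃ ε : ℝ, 0 < ε ∧ ∀ g : OctL E a b c ≃ₗ[E] OctL E a b c, g ∈ GTI ρ σ ι α a b c q →
      (∀ w ∈ Bd ρ σ q, ∀ x, on w (g x - x) ≤ ε * on w x) → g ∈ RsI ρ σ ι α a b c q :=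
  open_top_of_part H ho (fun h _ hD hD' hns _ _ κ hκ => part H hX ho h hD hD' hns κ hκ)

end fin

end Vale.Agent.P011.D4Y
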