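import Vale.Agent.P011.D4Y.H691.Ch

/-!
Block D4Y (helper691): the normal subgroup of the scalar multiples of the finite residual.
-/

open NumberField Topology

set_option linter.unusedSectionVars false

namespace Vale.Agent.P011.D4Y

open Vale.Agent.P011.MPQ Vale.Agent.P011.D4 Vale.Agent.P011.D4.Oct Vale.Agent.P011.E6
open Vale.Agent.P011.D4X

section model

variable {k L E : Type} [Field k] [Field L] [Field E] [Algebra k L] [Algebra k E] [Algebra L E]
  [IsScalarTower k L E] {ρ σ ι : E ≃ₐ[k] E} {α : E}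
  {a b c : kˣ} {q : Lˣ}

theorem mem_GTI_of_kapI_one {z : ATI ρ σ ι α a b c q} (h : kapI z = 1) :
    z.1 ∈ GTI ρ σ ι α a b c q := by
  refine ⟨fun x y => ?_, z.2.2.1, z.2.2.2⟩
  have h1 := isKapI_kapI z x y
  rw [h, Units.val_one, map_one, map_one, one_smul] at h1
  exact h1

theorem GTI_le_ATI {g : OctL E a b c ≃ₗ[E] OctL E a b c} (h : g ∈ GTI ρ σ ι α a b c q) :
    g ∈ ATI ρ σ ι α a b c q :=
  ⟨⟨1, fun x y => by rw [Units.val_one, map_one, map_one, one_smul]; exact h.1 x y⟩, h.2.1, h.2.2⟩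

theorem kapI_of_GTI {g : OctL E a b c ≃ₗ[E] OctL E a b c} (h : g ∈ GTI ρ σ ι α a b c q) :
    kapI (⟨g, GTI_le_ATI h⟩ : ATI ρ σ ι α a b c q) = 1 :=
  kapI_eq fun x y => by rw [Units.val_one, map_one, map_one, one_smul]; exact h.1 x y

theorem mem_RsI {g : OctL E a b c ≃ₗ[E] OctL E a b c} : g ∈ RsI ρ σ ι α a b c q ↔
    ∃ h : g ∈ GTI ρ σ ι α a b c q,
      (⟨g, h⟩ : GTI ρ σ ι α a b c q) ∈ fres (GTI ρ σ ι α a b c q) := by
  rw [RsI, Subgroup.mem_map]
  constructor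
  · rintro ⟨x, hx, rfl⟩
    exact ⟨x.2, hx⟩
  · rintro ⟨h, hx⟩
    exact ⟨_, hx, rfl⟩

theorem RsI_le : RsI ρ σ ι α a b c q ≤ GTI ρ σ ι α a b c q := fun _ h => (mem_RsI.1 h).1

/-- Conjugation of `GTI` by an element of `ATI`. -/
noncomputable def conjGI (z : ATI ρ σ ι α a b c q) :
    GTI ρ σ ι α a b c q ≃* GTI ρ σ ι α a b c q where
  toFun g := ⟨z.1 * g.1 * z.1⁻¹, mem_GTI_of_kapI_one (z := z * ⟨g.1, GTI_le_ATI g.2⟩ * z⁻¹) (by
    rw [kapI_mul, kapI_mul, kapI_inv, kapI_of_GTI g.2, mul_one, mul_inv_cancel])⟩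
  invFun g := ⟨z.1⁻¹ * g.1 * z.1, mem_GTI_of_kapI_one (z := z⁻¹ * ⟨g.1, GTI_le_ATI g.2⟩ * z) (by
    rw [kapI_mul, kapI_mul, kapI_inv, kapI_of_GTI g.2, mul_one, inv_mul_cancel])⟩
  left_inv g := by
    apply Subtype.ext
    change z.1⁻¹ * (z.1 * g.1 * z.1⁻¹) * z.1 = g.1
    group
  right_inv g := by
    apply Subtype.ext
    change z.1 * (z.1⁻¹ * g.1 * z.1) * z.1⁻¹ = g.1
    group
  map_mul' g h := by
    apply Subtype.ext
    change z.1 * (g.1 * h.1) * z.1⁻¹ = z.1 * g.1 * z.1⁻¹ * (z.1 * h.1 * z.1⁻¹)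
    group

theorem conj_mem_RsI (z : ATI ρ σ ι α a b c q) {g : OctL E a b c ≃ₗ[E] OctL E a b c}
    (h : g ∈ RsI ρ σ ι α a b c q) : z.1 * g * z.1⁻¹ ∈ RsI ρ σ ι α a b c q := by
  obtain ⟨h1, h2⟩ := mem_RsI.1 h
  have h3 := fres_map (conjGI z) h2
  exact mem_RsI.2 ⟨_, h3⟩

omit [Field E] [Algebra k E] [Algebra L E] [IsScalarTower k L E] in
theorem Na.up_mul (x y : kˣ) : up L (x * y) = up L x * up L y :=
  map_mul (Units.map (algebraMap k L : k →* L)) x y

omit [Field E] [Algebra k E] [Algebra L E] [IsScalarTower k L E] in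
theorem Na.up_inv (x : kˣ) : up L x⁻¹ = (up L x)⁻¹ :=
  map_inv (Units.map (algebraMap k L : k →* L)) x

omit [Field E] [Algebra k E] [Algebra L E] [IsScalarTower k L E] in
theorem Na.up_pow (x : kˣ) (n : ℕ) : up L (x ^ n) = up L x ^ n :=
  map_pow (Units.map (algebraMap k L : k →* L)) x n

variable (H : HyI ρ σ ι α a b c q)

include H

/-- The relation between the scalar `ρ(l)` and its multiplier: `kap · n = l²`, `n = N(l)`. -/
theorem kapI_scal {l : Lˣ} {n : kˣ} (hn : algebraMap k E (n : k) =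
    algebraMap L E (l : L) * ρ (algebraMap L E (l : L)) * ρ (ρ (algebraMap L E (l : L)))) :
    kapI (H.scal l) = l ^ 2 * (up L n)⁻¹ := by
  have h0 : algebraMap L E (l : L) ≠ 0 :=
    (map_ne_zero_iff _ (algebraMap L E).injective).2 l.ne_zero
  have h1 : ρ (algebraMap L E (l : L)) ≠ 0 := (map_ne_zero_iff ρ ρ.injective).2 h0
  have h2 : ρ (ρ (algebraMap L E (l : L))) ≠ 0 := (map_ne_zero_iff ρ ρ.injective).2 h1
  apply kapI_eq
  intro x y
  rw [H.scal_apply, H.scal_apply, H.scal_apply, tri_smul_left, tri_smul_right, smul_smul,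
    smul_smul, H.ρ3]
  congr 1
  have e1 : algebraMap L E (((l ^ 2 * (up L n)⁻¹ : Lˣ) : L)) =
      algebraMap L E (l : L) ^ 2 * (algebraMap k E (n : k))⁻¹ := by
    rw [Units.val_mul, Units.val_pow_eq_pow_val, Units.val_inv_eq_inv_val, map_mul, map_pow,
      map_inv₀, IsScalarTower.algebraMap_apply k L E]
    rfl
  rw [e1, hn]
  simp only [map_mul, map_pow, map_inv₀, H.ρ3]
  field_simp

/-- The scalars have class one. -/
theorem scal_mem_SqLI (l : Lˣ) : kapI (H.scal l) ∈ SqL k L := by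
  obtain ⟨n, hn⟩ := H.exists_norm l
  rw [kapI_scal H hn, mem_SqL]
  exact ⟨n⁻¹, l, by rw [Na.up_inv, mul_comm]⟩

/-- Every class one multiplier is the multiplier of a scalar. -/
theorem HyI.exists_mu {κ : Lˣ} (hκ : κ ∈ SqL k L) : ∃ μ : Lˣ, kapI (H.scal μ) = κ := by
  obtain ⟨t, l, rfl⟩ := mem_SqL.1 hκ
  obtain ⟨n, hn⟩ := H.exists_norm l
  refine ⟨l * (up L (n * t))⁻¹, ?_⟩
  have hn' : algebraMap k E (((n * (n * t)⁻¹ ^ 3 : kˣ) : k)) =
      algebraMap L E ((l * (up L (n * t))⁻¹ : Lˣ) : L) *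
        ρ (algebraMap L E ((l * (up L (n * t))⁻¹ : Lˣ) : L)) *
        ρ (ρ (algebraMap L E ((l * (up L (n * t))⁻¹ : Lˣ) : L))) := by
    have e1 : algebraMap L E ((l * (up L (n * t))⁻¹ : Lˣ) : L) =
        algebraMap L E (l : L) * algebraMap k E (((n * t)⁻¹ : kˣ) : k) := by
      rw [Units.val_mul, map_mul]
      congr 1
      rw [← Na.up_inv, IsScalarTower.algebraMap_apply k L E]
      rfl
    rw [e1, Units.val_mul, Units.val_pow_eq_pow_val, map_mul, map_pow, hn]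
    simp only [map_mul, AlgEquiv.commutes]
    ring
  rw [kapI_scal H hn', Na.up_mul, Na.up_mul, Na.up_pow, Na.up_inv, Na.up_mul]
  have h5 : ∀ x y z : Lˣ, (x * (y * z)⁻¹) ^ 2 * (y * (y * z)⁻¹ ^ 3)⁻¹ = z * x ^ 2 := by
    intro x y z
    apply Units.ext
    have hy : (y : L) ≠ 0 := y.ne_zero
    have hz : (z : L) ≠ 0 := z.ne_zero
    simp only [Units.val_mul, Units.val_pow_eq_pow_val, Units.val_inv_eq_inv_val]
    field_simp
  exact h5 _ _ _

/-- An element of class one is a scalar times an element of `GTI`. -/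
theorem exists_scalI {z : ATI ρ σ ι α a b c q} {κ : Lˣ} (h : IsKapI ρ z.1 κ)
    (hκ : κ ∈ SqL k L) :
    ∃ (l : Lˣ) (g : OctL E a b c ≃ₗ[E] OctL E a b c), g ∈ GTI ρ σ ι α a b c q ∧
      ∀ x, z.1 x = ρ (algebraMap L E (l : L)) • g x := by
  obtain ⟨μ, hμ⟩ := H.exists_mu hκ
  refine ⟨μ, ((H.scal μ)⁻¹ * z : ATI ρ σ ι α a b c q).1, mem_GTI_of_kapI_one ?_, fun x => ?_⟩
  · rw [kapI_mul, kapI_inv, hμ, kapI_eq h, inv_mul_cancel]
  · rw [← H.scal_apply]
    change z.1 x = ((H.scal μ) * ((H.scal μ)⁻¹ * z) : ATI ρ σ ι α a b c q).1 x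
    rw [mul_inv_cancel_left]

/-- The normal subgroup `N`. -/
def HyI.NA (H : HyI ρ σ ι α a b c q) : Subgroup (ATI ρ σ ι α a b c q) where
  carrier := {z | IsNI ρ σ ι α a b c q z}
  mul_mem' := by
    rintro z w ⟨l, g, hg, h1⟩ ⟨l', g', hg', h2⟩
    refine ⟨l * l', g * g', Subgroup.mul_mem _ hg hg', fun x => ?_⟩
    change z.1 (w.1 x) = _
    rw [h2, map_smul, h1, smul_smul, LinearEquiv.mul_apply, Units.val_mul, map_mul, map_mul,
      mul_comm (ρ (algebraMap L E (l : L)))]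
  one_mem' := ⟨1, 1, Subgroup.one_mem _, fun x => by
    rw [Units.val_one, map_one, map_one, one_smul]; rfl⟩
  inv_mem' := by
    rintro z ⟨l, g, hg, h1⟩
    refine ⟨l⁻¹, g⁻¹, Subgroup.inv_mem _ hg, fun x => ?_⟩
    have h2 : ∀ v, g (g⁻¹ v) = v := fun v => by
      rw [← LinearEquiv.mul_apply, mul_inv_cancel]; rfl
    have h3 : ∀ v, z.1 ((z⁻¹ : ATI ρ σ ι α a b c q).1 v) = v := fun v => by
      change (z * z⁻¹ : ATI ρ σ ι α a b c q).1 v = v
      rw [mul_inv_cancel]; rfl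
    apply z.1.injective
    rw [h3, map_smul, h1, h2, smul_smul, ← map_mul, ← map_mul, Units.inv_mul, map_one, map_one,
      one_smul]

theorem HyI.mem_NA {z : ATI ρ σ ι α a b c q} : z ∈ H.NA ↔ IsNI ρ σ ι α a b c q z := Iff.rfl

instance HyI.NA_normal : H.NA.Normal := ⟨by
  rintro z ⟨l, g, hg, h1⟩ w
  refine ⟨l, w.1 * g * w.1⁻¹, conj_mem_RsI w hg, fun x => ?_⟩
  change w.1 (z.1 (w.1⁻¹ x)) = _
  rw [h1, map_smul]
  rfl⟩

theorem HyI.kap_mem_of_NA {z : ATI ρ σ ι α a b c q} (hz : z ∈ H.NA) : kapI z ∈ SqL k L := by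
  obtain ⟨l, g, hg, h1⟩ := hz
  have h2 : z = H.scal l * ⟨g, GTI_le_ATI (RsI_le hg)⟩ := by
    apply Subtype.ext
    apply LinearEquiv.ext
    intro x
    rw [h1, ← H.scal_apply]
    rfl
  rw [h2, kapI_mul, kapI_of_GTI (RsI_le hg), mul_one]
  exact scal_mem_SqLI H l

/-- The elements of `GTI` which lie in `NA` lie in the finite residual. -/
theorem mem_of_isNI (g : OctL E a b c ≃ₗ[E] OctL E a b c) (hg : g ∈ GTI ρ σ ι α a b c q)
    (h : IsNI ρ σ ι α a b c q ⟨g, GTI_le_ATI hg⟩) : g ∈ RsI ρ σ ι α a b c q := by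
  obtain ⟨l, g', hg', h1⟩ := h
  have h1' : ∀ x, g x = ρ (algebraMap L E (l : L)) • g' x := h1
  have hg2 := RsI_le hg'
  obtain ⟨t, ht⟩ : ∃ t, t = ρ (algebraMap L E (l : L)) := ⟨_, rfl⟩
  rw [← ht] at h1'
  have h2 : t = ρ t * ρ (ρ t) := by
    have h3 := hg.1 1 1
    rw [tri_one_one, h1', tri_smul_left, tri_smul_right, smul_smul, ← hg2.1, tri_one_one] at h3
    have h4 : g' (1 : OctL E a b c) ≠ 0 := by
      intro h5
      have h6 : (1 : OctL E a b c) = 0 := by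
        apply g'.injective
        rw [h5, map_zero]
      have h7 := congrArg (fun x : OctL E a b c => x.fst.re) h6
      simp at h7
    exact smul_left_injective E h4 h3
  have hl0 : t ≠ 0 := by
    rw [ht]
    exact (map_ne_zero_iff ρ ρ.injective).2
      ((map_ne_zero_iff _ (algebraMap L E).injective).2 l.ne_zero)
  have hl1 : t = 1 := by
    have h3 : ρ t = ρ (ρ t) * t := by
      have := congrArg ρ h2
      rwa [map_mul, H.ρ3] at this
    have h4 : t = t * (ρ (ρ t)) ^ 2 := by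
      linear_combination h2 + ρ (ρ t) * h3
    have h5 : (ρ (ρ t)) ^ 2 = 1 := by
      have := mul_left_cancel₀ hl0 (h4.symm.trans (mul_one t).symm)
      exact this
    have h6 : (ρ (ρ t) - 1) * (ρ (ρ t) + 1) = 0 := by linear_combination h5
    rcases mul_eq_zero.1 h6 with h7 | h7
    · have h8 : ρ (ρ t) = 1 := by linear_combination h7
      have h9 := congrArg ρ h8
      rwa [H.ρ3, map_one] at h9
    · have h8 : ρ (ρ t) = -1 := by linear_combination h7
      have h9 := congrArg ρ h8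
      rw [H.ρ3, map_neg, map_one] at h9
      have h10 := congrArg ρ h9
      rw [map_neg, map_one] at h10
      linear_combination h2 + ρ t * h8 - h10
  have h3 : g = g' := by
    apply LinearEquiv.ext
    intro x
    rw [h1', hl1, one_smul]
  rw [h3]
  exact hg'

end model

end Vale.Agent.P011.D4Y
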