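import Vale.Agent.P011.D4Y.Defs
import Vale.Agent.P011.D4X.H691.Na

/-!
Block D4Y (helper691): change of coordinates with `i` fixed, scalars, classes.
-/

open NumberField Topology

set_option linter.unusedSectionVars false

namespace Vale.Agent.P011.D4Y

open Vale.Agent.P011.MPQ Vale.Agent.P011.D4 Vale.Agent.P011.D4.Oct Vale.Agent.P011.E6
open Vale.Agent.P011.D4X

section trip

variable {k E : Type} [Field k] [Field E] [Algebra k E] [NeZero (2 : E)] {a b c a' b' c' : kˣ}
  {i j l : Oct a b c}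

theorem tripO_Im (ι : E ≃ₐ[k] E) (h : Trip a' b' c' i j l) (x : OctL E a' b' c') :
    tripO E h (Im ι x) = Im ι (tripO E h x) := by
  rw [Im, Im, tripO_omap, D4X.tripO_star]

end trip

section im

variable {k E : Type} [Field k] [Field E] [Algebra k E] {a b c : kˣ}

theorem Ch.Im_smul (ι : E ≃ₐ[k] E) (t : E) (x : OctL E a b c) : Im ι (t • x) = ι t • Im ι x := by
  rw [Im, star_smul_oct, omap_smul]; rfl

theorem Ch.Im_add (ι : E ≃ₐ[k] E) (x y : OctL E a b c) : Im ι (x + y) = Im ι x + Im ι y := by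
  rw [Im, star_add, omap_add]; rfl

end im

section model

variable {k L E : Type} [Field k] [Field L] [Field E] [Algebra k L] [Algebra k E] [Algebra L E]
  [IsScalarTower k L E] {ρ σ ι : E ≃ₐ[k] E} {α : E}
  {a b c : kˣ} {q : Lˣ}

theorem isKapI_unique {z : OctL E a b c ≃ₗ[E] OctL E a b c} {κ κ' : Lˣ} (h : IsKapI ρ z κ)
    (h' : IsKapI ρ z κ') : κ = κ' := by
  have h1 := h 1 1
  have h2 := h' 1 1
  rw [tri_one_one] at h1 h2
  have h3 : tri ρ (z (1 : OctL E a b c)) (z 1) ≠ 0 := by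
    intro h4
    rw [h4, smul_zero] at h1
    have h5 : (1 : OctL E a b c) = 0 := by
      apply z.injective
      rw [h1, map_zero]
    have h6 := congrArg (fun x : OctL E a b c => x.fst.re) h5
    simp at h6
  have h4 : ρ (algebraMap L E (κ : L)) • tri ρ (z (1 : OctL E a b c)) (z 1) =
      ρ (algebraMap L E (κ' : L)) • tri ρ (z (1 : OctL E a b c)) (z 1) := h1.symm.trans h2
  exact Units.ext ((algebraMap L E).injective (ρ.injective (smul_left_injective E h3 h4)))

theorem IsKapI.mul {z w : OctL E a b c ≃ₗ[E] OctL E a b c} {κ κ' : Lˣ} (h : IsKapI ρ z κ)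
    (h' : IsKapI ρ w κ') : IsKapI ρ (z * w) (κ * κ') := fun x y => by
  rw [LinearEquiv.mul_apply, LinearEquiv.mul_apply, LinearEquiv.mul_apply, h', map_smul, h,
    smul_smul, Units.val_mul, map_mul, map_mul, mul_comm (ρ (algebraMap L E (κ : L)))]

theorem IsKapI.one : IsKapI ρ (1 : OctL E a b c ≃ₗ[E] OctL E a b c) (1 : Lˣ) := fun x y => by
  rw [Units.val_one, map_one, map_one, one_smul]; rfl

/-- The multiplier. -/
noncomputable def kapI (z : ATI ρ σ ι α a b c q) : Lˣ := z.2.1.choose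

theorem isKapI_kapI (z : ATI ρ σ ι α a b c q) : IsKapI ρ z.1 (kapI z) := z.2.1.choose_spec

theorem kapI_eq {z : ATI ρ σ ι α a b c q} {κ : Lˣ} (h : IsKapI ρ z.1 κ) : kapI z = κ :=
  isKapI_unique (isKapI_kapI z) h

variable (ρ σ ι α a b c q) in
/-- The multiplier, as a homomorphism. -/
noncomputable def kapHomI : ATI ρ σ ι α a b c q →* Lˣ where
  toFun := kapI
  map_one' := kapI_eq IsKapI.one
  map_mul' z w := kapI_eq ((isKapI_kapI z).mul (isKapI_kapI w))

@[simp] theorem kapHomI_apply (z : ATI ρ σ ι α a b c q) :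
    kapHomI ρ σ ι α a b c q z = kapI z := rfl

theorem kapI_mul (z w : ATI ρ σ ι α a b c q) : kapI (z * w) = kapI z * kapI w :=
  map_mul (kapHomI ρ σ ι α a b c q) z w

theorem kapI_inv (z : ATI ρ σ ι α a b c q) : kapI z⁻¹ = (kapI z)⁻¹ :=
  map_inv (kapHomI ρ σ ι α a b c q) z

variable (H : HyI ρ σ ι α a b c q)

include H

/-- The conjugates of the elements of `L`. -/
theorem HyI.ριL (t : L) : ρ (ι (algebraMap L E t)) = algebraMap L E t := by
  rw [H.ιL, H.ρ3]

/-- The norm of a unit of `L` lies in `k`. -/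
theorem HyI.exists_norm (l : Lˣ) : ∃ n : kˣ, algebraMap k E (n : k) =
    algebraMap L E (l : L) * ρ (algebraMap L E (l : L)) * ρ (ρ (algebraMap L E (l : L))) := by
  obtain ⟨t, ht⟩ : ∃ t, t = algebraMap L E (l : L) := ⟨_, rfl⟩
  have hσ : σ t = t := by rw [ht, H.σL]
  have hι : ι t = ρ (ρ t) := by rw [ht, H.ιL]
  rw [← ht]
  obtain ⟨n, hn⟩ := H.fixk (t * ρ t * ρ (ρ t)) (by
    rw [map_mul, map_mul, H.ρ3]; ring) (by
    rw [map_mul, map_mul, H.comm, H.comm, H.comm, hσ]) (by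
    rw [map_mul, map_mul, H.ιρ, H.ιρ, H.ιρ, hι, H.ρ3, H.ρ3]; ring)
  have ht0 : t ≠ 0 := by
    rw [ht]
    exact (map_ne_zero_iff _ (algebraMap L E).injective).2 l.ne_zero
  have hn0 : n ≠ 0 := by
    rintro rfl
    rw [map_zero] at hn
    have h1 : ρ t ≠ 0 := (map_ne_zero_iff ρ ρ.injective).2 ht0
    exact mul_ne_zero (mul_ne_zero ht0 h1) ((map_ne_zero_iff ρ ρ.injective).2 h1) hn.symm
  exact ⟨Units.mk0 n hn0, hn⟩

/-- `J` is semilinear. -/
theorem Jm_smulI (t : L) (x : OctL E a b c) :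
    Jm ρ σ α q (ρ (algebraMap L E t) • x) = ρ (algebraMap L E t) • Jm ρ σ α q x := by
  rw [Jm_eq, Jm_eq, omap_smul, H.comm, H.σL, mul_smul_oct, smul_mul_oct]

/-- The scalars. -/
noncomputable def HyI.scal (l : Lˣ) : ATI ρ σ ι α a b c q :=
  ⟨LinearEquiv.smulOfUnit (Units.map (ρ : E →* E) (Units.map (algebraMap L E : L →* E) l)), by
    obtain ⟨n, hn⟩ := H.exists_norm l
    have h0 : algebraMap L E (l : L) ≠ 0 :=
      (map_ne_zero_iff _ (algebraMap L E).injective).2 l.ne_zero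
    have h1 : ρ (algebraMap L E (l : L)) ≠ 0 := (map_ne_zero_iff ρ ρ.injective).2 h0
    have h2 : ρ (ρ (algebraMap L E (l : L))) ≠ 0 := (map_ne_zero_iff ρ ρ.injective).2 h1
    refine ⟨⟨l ^ 2 * (Units.map (algebraMap k L : k →* L) n)⁻¹, fun x y => ?_⟩, fun x => ?_,
      fun x => ?_⟩
    · change ρ (algebraMap L E (l : L)) • tri ρ x y = _ • tri ρ (ρ (algebraMap L E (l : L)) • x)
        (ρ (algebraMap L E (l : L)) • y)
      rw [tri_smul_left, tri_smul_right, smul_smul, smul_smul, H.ρ3]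
      congr 1
      have e1 : algebraMap L E (((l ^ 2 * (Units.map (algebraMap k L : k →* L) n)⁻¹ : Lˣ) : L)) =
          algebraMap L E (l : L) ^ 2 * (algebraMap k E (n : k))⁻¹ := by
        rw [Units.val_mul, Units.val_pow_eq_pow_val, Units.val_inv_eq_inv_val, map_mul, map_pow,
          map_inv₀, IsScalarTower.algebraMap_apply k L E]
        rfl
      rw [e1, hn]
      simp only [map_mul, map_pow, map_inv₀, H.ρ3]
      field_simp
    · exact (Jm_smulI H (l : L) x).symm
    · change ρ (algebraMap L E (l : L)) • Im ι x = Im ι (ρ (algebraMap L E (l : L)) • x)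
      rw [Ch.Im_smul, H.ιρ, H.ιL, H.ρ3]⟩

theorem HyI.scal_apply (l : Lˣ) (x : OctL E a b c) :
    (H.scal l).1 x = ρ (algebraMap L E (l : L)) • x := rfl

end model

end Vale.Agent.P011.D4Y
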