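import Vale.Agent.P011.D4X.H691.FinA
import Vale.Agent.P011.D4Y.H659.HhI

/-!
Block D4Y (helper691): the final assembly, from F4, `part`, `stab_N`.
-/

open NumberField Topology

set_option linter.unusedSectionVars false

namespace Vale.Agent.P011.D4Y

open Vale.Agent.P011.MPQ Vale.Agent.P011.D4 Vale.Agent.P011.D4.Oct Vale.Agent.P011.E6
open Vale.Agent.P011.D4X Vale.Agent.P011.D4X.H691

/-- The multipliers of the elements of `stabsPI P`. -/
theorem H691.kap_mem {k L E : Type} [Field k] [Field L] [Field E] [Algebra k L] [Algebra k E]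
    [Algebra L E] [IsScalarTower k L E] [NeZero (2 : E)] {ρ σ ι : E ≃ₐ[k] E}
    {α : E} {a b c : kˣ} {q : Lˣ} {P : Subgroup Lˣ} {z : ATI ρ σ ι α a b c q}
    (hz : z ∈ stabsPI P ρ σ ι α a b c q) : kapI z ∈ P := by
  have h : stabsPI P ρ σ ι α a b c q ≤ P.comap (kapHomI ρ σ ι α a b c q) := by
    rw [stabsPI, Subgroup.closure_le]
    rintro z ⟨h1, -⟩
    exact h1
  exact h hz

section fin

variable {k L E : Type} [Field k] [NumberField k] [Field L] [NumberField L] [Field E]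
  [Algebra k L] [Algebra k E] [Algebra L E]
  [IsScalarTower k L E] [NeZero (2 : E)] {ρ σ ι : E ≃ₐ[k] E} {α : E}
  {a b c : kˣ} {q : Lˣ}

theorem SqL_le_PosC : SqL k L ≤ PosC k L a := by
  intro κ hκ
  obtain ⟨e, l, h⟩ := mem_SqL.1 hκ
  rw [h]
  exact Subgroup.mul_mem _ (map_mem_PosC e) (sq_mem_PosC l)

/-- The end of the generation, with multipliers of constant signs. -/
theorem mem_stabsP_of_PP {P : Subgroup Lˣ}
    (hgen2 : ∀ (z : ATI ρ σ ι α a b c q) (t : E), z.1 (ep α) = t • ep α → kapI z ∈ P →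
      z ∈ stabsPI P ρ σ ι α a b c q) {v : OctL E a b c} (h0 : H659.PPI P ρ σ ι α q v)
    {g : ATI ρ σ ι α a b c q} (hg : kapI g ∈ P) (h1 : H659.PPI P ρ σ ι α q (g.1 v)) :
    g ∈ stabsPI P ρ σ ι α a b c q := by
  obtain ⟨z0, hz0, r, hr, e0⟩ := h0
  obtain ⟨y, hy, t, ht, e1⟩ := h1
  have e2 : g.1 (tri ρ v (Jm ρ σ α q v)) =
      ρ (algebraMap L E (kapI g : L)) • tri ρ (g.1 v) (Jm ρ σ α q (g.1 v)) := by
    rw [isKapI_kapI g, g.2.2.1]
  have e3 : (y * g * z0⁻¹).1 (ep α) = (r⁻¹ * (ρ (algebraMap L E (kapI g : L)) * t)) • ep α := by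
    have e4 : z0⁻¹.1 (ep α) = r⁻¹ • tri ρ v (Jm ρ σ α q v) := by
      apply z0.1.injective
      rw [map_smul, e0, smul_smul, inv_mul_cancel₀ hr, one_smul]
      change (z0 * z0⁻¹ : ATI ρ σ ι α a b c q).1 _ = _
      rw [mul_inv_cancel]
      rfl
    change y.1 (g.1 (z0⁻¹.1 (ep α))) = _
    rw [e4, map_smul, map_smul, e2, map_smul, e1, smul_smul, smul_smul, mul_assoc]
  have h3 := hgen2 _ _ e3 (by
    rw [kapI_mul, kapI_mul, kapI_inv]
    exact Subgroup.mul_mem _ (Subgroup.mul_mem _ (H691.kap_mem hy) hg)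
      (Subgroup.inv_mem _ (H691.kap_mem hz0)))
  have h4 : g = y⁻¹ * (y * g * z0⁻¹) * z0 := by
    rw [mul_assoc y⁻¹, inv_mul_cancel_right, inv_mul_cancel_left]
  rw [h4]
  exact Subgroup.mul_mem _ (Subgroup.mul_mem _ (Subgroup.inv_mem _ hy) h3) hz0

variable (H : HyI ρ σ ι α a b c q)

include H

/-- The centralisers are congruent to the centraliser of the standard involution, for the elements
whose multiplier has constant signs. -/
theorem stabP_le_of {b' c' : kˣ} {j l : Oct a b c} (h : Trip a b' c' gi j l)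
    {G : k → Prop}
    (hF4 : ∀ ν : Lˣ, (∀ w : L →+* ℝ, w (algebraMap k L a) < 0 → 0 < w (ν : L)) →
      ∃ (D : Fin 3 → k) (x y : Fin 3 → L) (e : kˣ), (∀ i, G (D i)) ∧
        (ν : L) = algebraMap k L (e : k) * ∏ i, (x i ^ 2 - algebraMap k L (D i) * y i ^ 2))
    (hpart : ∀ {D : k}, G D → ∀ {x y : L} (κ : Lˣ),
      (κ : L) = x ^ 2 - algebraMap k L D * y ^ 2 →
      ∃ w w' : ATI ρ σ ι α a b c q, w ∈ stab0I ρ σ ι α a b c q ∧ w' ∈ stabI ρ σ ι α q h ∧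
        IsKapI ρ w.1 κ ∧ IsKapI ρ w'.1 κ ∧ IsNI ρ σ ι α a b c q (w * w'⁻¹))
    (hstabN : ∀ {z : ATI ρ σ ι α a b c q}, z ∈ stabI ρ σ ι α q h → ∀ {κ : Lˣ}, IsKapI ρ z.1 κ →
      κ ∈ SqL k L → IsNI ρ σ ι α a b c q z)
    {z : ATI ρ σ ι α a b c q} (hz : z ∈ stabI ρ σ ι α q h) (hP : kapI z ∈ PosC k L a) :
    z ∈ H.NA ⊔ stab0I ρ σ ι α a b c q := by
  obtain ⟨e0, he0⟩ := exists_e hP
  obtain ⟨D, x, y, e, hD, hp⟩ := hF4 (up L e0 * kapI z) (fun w hw => by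
    rw [Units.val_mul, map_mul]
    exact he0 w hw)
  have hne : ∀ i, x i ^ 2 - algebraMap k L (D i) * y i ^ 2 ≠ 0 := by
    intro i h0
    have h1 : ∏ i, (x i ^ 2 - algebraMap k L (D i) * y i ^ 2) = 0 :=
      Finset.prod_eq_zero (Finset.mem_univ i) h0
    rw [h1, mul_zero] at hp
    exact (up L e0 * kapI z).ne_zero hp
  choose w w' hw hw' hwk hwk' hww using fun i =>
    hpart (hD i) (x := x i) (y := y i) (Units.mk0 _ (hne i)) rfl
  -- the product of the parts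
  have key : ∀ i, w' i ∈ H.NA ⊔ stab0I ρ σ ι α a b c q := by
    intro i
    have h1 : w i * (w' i)⁻¹ ∈ H.NA := hww i
    have h2 : w' i = (w i * (w' i)⁻¹)⁻¹ * w i := by group
    rw [h2]
    exact Subgroup.mul_mem _ (Subgroup.mem_sup_left (H.NA.inv_mem h1))
      (Subgroup.mem_sup_right (hw i))
  let u : ATI ρ σ ι α a b c q := w' 0 * w' 1 * w' 2
  have hu : u ∈ stabI ρ σ ι α q h :=
    Subgroup.mul_mem _ (Subgroup.mul_mem _ (hw' 0) (hw' 1)) (hw' 2)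
  have hu' : u ∈ H.NA ⊔ stab0I ρ σ ι α a b c q :=
    Subgroup.mul_mem _ (Subgroup.mul_mem _ (key 0) (key 1)) (key 2)
  have hku : kapI u = Units.mk0 _ (hne 0) * Units.mk0 _ (hne 1) * Units.mk0 _ (hne 2) := by
    rw [kapI_mul, kapI_mul, kapI_eq (hwk' 0), kapI_eq (hwk' 1), kapI_eq (hwk' 2)]
  have hκ : up L e0 * kapI z = up L e * kapI u := by
    apply Units.ext
    rw [hp, hku, Fin.prod_univ_three]
    rfl
  have hcl : kapI (z * u⁻¹) ∈ SqL k L := by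
    rw [kapI_mul, kapI_inv]
    have h1 : kapI z * (kapI u)⁻¹ = (up L e0)⁻¹ * up L e := by
      rw [eq_inv_mul_iff_mul_eq, ← mul_assoc, hκ, mul_inv_cancel_right]
    have h2 : ∀ t : kˣ, up L t ∈ SqL k L := fun t => by
      rw [mem_SqL]
      exact ⟨t, 1, by rw [one_pow, mul_one]⟩
    rw [h1]
    exact Subgroup.mul_mem _ (Subgroup.inv_mem _ (h2 e0)) (h2 e)
  have hN : z * u⁻¹ ∈ H.NA :=
    hstabN (Subgroup.mul_mem _ hz (Subgroup.inv_mem _ hu)) (isKapI_kapI _) hcl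
  have hzu : z = z * u⁻¹ * u := by group
  rw [hzu]
  exact Subgroup.mul_mem _ (Subgroup.mem_sup_left hN) hu'

/-- The elements of class one of `stabsP`. -/
theorem mem_NA_of_stabsP
    (hle : ∀ {b' c' : kˣ} {j l : Oct a b c} (h : Trip a b' c' gi j l) {z : ATI ρ σ ι α a b c q},
      z ∈ stabI ρ σ ι α q h → kapI z ∈ PosC k L a → z ∈ H.NA ⊔ stab0I ρ σ ι α a b c q)
    (hstabN : ∀ {z : ATI ρ σ ι α a b c q}, z ∈ stab0I ρ σ ι α a b c q → kapI z ∈ SqL k L →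
      IsNI ρ σ ι α a b c q z)
    {z : ATI ρ σ ι α a b c q} (hz : z ∈ stabsPI (PosC k L a) ρ σ ι α a b c q)
    (hκ : kapI z ∈ SqL k L) : z ∈ H.NA := by
  have h1 : stabsPI (PosC k L a) ρ σ ι α a b c q ≤ H.NA ⊔ stab0I ρ σ ι α a b c q := by
    rw [stabsPI, Subgroup.closure_le]
    rintro z ⟨hP, b', c', j, l, h, hz⟩
    exact hle h hz hP
  obtain ⟨n, hn1, s, hs, rfl⟩ := Subgroup.mem_sup_of_normal_left.1 (h1 hz)
  have hN : kapI n ∈ SqL k L := H.kap_mem_of_NA hn1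
  rw [kapI_mul] at hκ
  have h2 : kapI s ∈ SqL k L := (Subgroup.mul_mem_cancel_left _ hN).1 hκ
  exact H.NA.mul_mem hn1 (hstabN hs h2)

/-- The elements of `GTI` which lie in `stabsP` lie in the finite residual. -/
theorem mem_RsI_of_stabsP
    (hle : ∀ {b' c' : kˣ} {j l : Oct a b c} (h : Trip a b' c' gi j l) {z : ATI ρ σ ι α a b c q},
      z ∈ stabI ρ σ ι α q h → kapI z ∈ PosC k L a → z ∈ H.NA ⊔ stab0I ρ σ ι α a b c q)
    (hstabN : ∀ {z : ATI ρ σ ι α a b c q}, z ∈ stab0I ρ σ ι α a b c q → kapI z ∈ SqL k L →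
      IsNI ρ σ ι α a b c q z)
    {g : OctL E a b c ≃ₗ[E] OctL E a b c} (hg : g ∈ GTI ρ σ ι α a b c q)
    (h : (⟨g, GTI_le_ATI hg⟩ : ATI ρ σ ι α a b c q) ∈ stabsPI (PosC k L a) ρ σ ι α a b c q) :
    g ∈ RsI ρ σ ι α a b c q := by
  refine mem_of_isNI H g hg (mem_NA_of_stabsP H hle hstabN h ?_)
  rw [kapI_of_GTI hg]
  exact Subgroup.one_mem _

end fin

end Vale.Agent.P011.D4Y
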