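import Vale.Agent.P011.D4Y.H691.OpenX
import Vale.Agent.P011.D4Y.H691.StabOf
import Vale.Agent.P011.D4Y.H63.Mix
import Vale.Agent.P011.D4Y.H64.F4

/-!
Block D4Y (helper691): openness at the bad real places, from `near_gen`, `gen2`, `part`.
-/

open NumberField Topology Filter

set_option linter.unusedSectionVars false

namespace Vale.Agent.P011.D4Y

open Vale.Agent.P011.MPQ Vale.Agent.P011.D4 Vale.Agent.P011.D4.Oct Vale.Agent.P011.E6
open Vale.Agent.P011.D4X Vale.Agent.P011.D4X.H691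

section fin

variable {k L E : Type} [Field k] [NumberField k] [Field L] [NumberField L] [Field E]
  [Algebra k L] [Algebra k E] [Algebra L E]
  [IsScalarTower k L E] [NeZero (2 : E)] {ρ σ ι : E ≃ₐ[k] E} {α : E}
  {a b c : kˣ} {q : Lˣ} (H : HyI ρ σ ι α a b c q)

include H

/-- F1: the elements of class one in a centraliser. -/
theorem stab_N (ho : HOdd a q) {b' c' : kˣ} {j l : Oct a b c} (h : Trip a b' c' gi j l)
    {z : ATI ρ σ ι α a b c q} (hz : z ∈ stabI ρ σ ι α q h) {κ : Lˣ} (hκ : IsKapI ρ z.1 κ)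
    (hcl : κ ∈ SqL k L) : IsNI ρ σ ι α a b c q z :=
  stab_NI_of H h (fun _ _ _ h0 h1 _ hg => H63.mix_mem (hyTripI H h) ho h0 h1 hg) hz hκ hcl

/-- The centralisers are congruent to the centraliser of the standard involution, for the elements
whose multiplier has constant signs. -/
theorem stabP_le (ho : HOdd a q) {b' c' : kˣ} {j l : Oct a b c} (h : Trip a b' c' gi j l)
    (hpart : ∀ {D : k}, GoodD a b q D → GoodD a b' q D → (∀ e : E, e * e ≠ algebraMap k E D) →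
      ∀ {x y : L} (κ : Lˣ), (κ : L) = x ^ 2 - algebraMap k L D * y ^ 2 →
      ∃ w w' : ATI ρ σ ι α a b c q, w ∈ stab0I ρ σ ι α a b c q ∧ w' ∈ stabI ρ σ ι α q h ∧
        IsKapI ρ w.1 κ ∧ IsKapI ρ w'.1 κ ∧ IsNI ρ σ ι α a b c q (w * w'⁻¹))
    {z : ATI ρ σ ι α a b c q} (hz : z ∈ stabI ρ σ ι α q h) (hP : kapI z ∈ PosC k L a) :
    z ∈ H.NA ⊔ stab0I ρ σ ι α a b c q :=
  stabP_le_of H h (G := fun D => GoodD a b q D ∧ GoodD a b' q D ∧
      ∀ e : E, e * e ≠ algebraMap k E D)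
    (fun ν hν => F4 H ho h ν hν) (fun hG _ _ κ hκ => hpart hG.1 hG.2.1 hG.2.2 κ hκ)
    (fun hz _ hκ hc => stab_N H ho h hz hκ hc) hz hP

/-- **Openness at the bad places**, from the generation near one and `part`. -/
theorem open_top_of (ho : HOdd a q) {S : Set (E →+* ℂ)} (hS : S.Finite) {v : OctL E a b c}
    (hv : Pt ρ v) {μ : E} (hvI : Im ι v = μ • v)
    (hgen : ∀ᶠ x in nh S v, Pt ρ x → (∃ μ : E, Im ι x = μ • x) → H659.PPI (PosC k L a) ρ σ ι α q x)
    (hgen2 : ∀ (z : ATI ρ σ ι α a b c q) (t : E), z.1 (ep α) = t • ep α → kapI z ∈ PosC k L a →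
      z ∈ stabsPI (PosC k L a) ρ σ ι α a b c q)
    (hpart : ∀ {b' c' : kˣ} {j l : Oct a b c} (h : Trip a b' c' gi j l) {D : k},
      GoodD a b q D → GoodD a b' q D → (∀ e : E, e * e ≠ algebraMap k E D) → ∀ {x y : L} (κ : Lˣ),
      (κ : L) = x ^ 2 - algebraMap k L D * y ^ 2 →
      ∃ w w' : ATI ρ σ ι α a b c q, w ∈ stab0I ρ σ ι α a b c q ∧ w' ∈ stabI ρ σ ι α q h ∧
        IsKapI ρ w.1 κ ∧ IsKapI ρ w'.1 κ ∧ IsNI ρ σ ι α a b c q (w * w'⁻¹)) :
    ∃ ε : ℝ, 0 < ε ∧ ∀ g : OctL E a b c ≃ₗ[E] OctL E a b c, g ∈ GTI ρ σ ι α a b c q →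
      (∀ w ∈ S, ∀ x, on w (g x - x) ≤ ε * on w x) → g ∈ RsI ρ σ ι α a b c q := by
  refine open_of H hS hv hvI hgen hgen2 (fun h _ hz hP => stabP_le H ho h (hpart h) hz hP) ?_
  intro z hz hc
  rw [← stabI_std (trip_std : Trip a b c (gi : Oct a b c) gj gl)] at hz
  exact stab_N H ho trip_std hz (isKapI_kapI z) hc

/-- Positive multipliers have constant signs. -/
theorem H691.pos_mem_PosC (κ : Lˣ)
    (h : ∀ w : L →+* ℝ, w (algebraMap k L (a : k)) < 0 → 0 < w (κ : L)) : κ ∈ PosC k L a := by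
  intro w w' hw ha
  have ha' : w' (algebraMap k L (a : k)) < 0 := by
    have h1 := congrArg (fun f : k →+* ℝ => f (a : k)) hw
    change w (algebraMap k L (a : k)) = w' (algebraMap k L (a : k)) at h1
    rwa [← h1]
  exact mul_pos (h w ha) (h w' ha')

end fin

end Vale.Agent.P011.D4Y
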