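import Vale.Agent.P011.D4Y.H691.TopOf
import Vale.Agent.P011.D4Y.H408.NearI
import Vale.Agent.P011.D4Y.H659.StepBI
import Vale.Agent.P011.D4Y.H659.Gen2PI
import Vale.Agent.P011.D4Y.H659.BaseP

/-!
Block D4Y (helper691): openness at the bad real places, from `part`.
-/

open NumberField Topology Filter

set_option linter.unusedSectionVars false

namespace Vale.Agent.P011.D4Y

open Vale.Agent.P011.MPQ Vale.Agent.P011.D4 Vale.Agent.P011.D4.Oct Vale.Agent.P011.E6
open Vale.Agent.P011.D4X Vale.Agent.P011.D4X.H691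

section fin

variable {k L E : Type} [Field k] [NumberField k] [Field L] [NumberField L] [Field E]
  [Algebra k L] [Algebra k E] [Algebra L E]
  [IsScalarTower k L E] [NeZero (2 : E)] {ρ σ ι : E ≃ₐ[k] E} {α : E}
  {a b c : kˣ} {q : Lˣ} (H : HyI ρ σ ι α a b c q)

include H

/-- The stable singular vectors near the standard one. -/
theorem H691.near_gen {P : Subgroup Lˣ}
    (hP : ∀ κ : Lˣ, (∀ w : L →+* ℝ, w (algebraMap k L a) < 0 → 0 < w (κ : L)) → κ ∈ P) :
    ∀ᶠ v in nh (Bd ρ σ q) (ep α * oup E (gl : Oct a b c)), Pt ρ v →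
      (∃ μ : E, invo ι v = μ • v) → H659.PPI P ρ σ ι α q v := by
  have : NeZero (2 : k) := ⟨two_ne_zero⟩
  exact H408.near_genI H (P := H659.PPI P ρ σ ι α q) (fun t ht v => H659.PPI_smul ht)
    (fun z b' c' j l h hz hκ v hv => H659.act_near z b' c' j l h hz hκ v hv)
    (H659.step_near H hP) (H659.base_PPI H hP)

/-- **Openness at the bad places**, from `part`. -/
theorem open_top_of_part (ho : HOdd a q)
    (hpart : ∀ {b' c' : kˣ} {j l : Oct a b c} (h : Trip a b' c' gi j l) {D : k},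
      GoodD a b q D → GoodD a b' q D → (∀ e : E, e * e ≠ algebraMap k E D) → ∀ {x y : L} (κ : Lˣ),
      (κ : L) = x ^ 2 - algebraMap k L D * y ^ 2 →
      ∃ w w' : ATI ρ σ ι α a b c q, w ∈ stab0I ρ σ ι α a b c q ∧ w' ∈ stabI ρ σ ι α q h ∧
        IsKapI ρ w.1 κ ∧ IsKapI ρ w'.1 κ ∧ IsNI ρ σ ι α a b c q (w * w'⁻¹)) :
    ∃ ε : ℝ, 0 < ε ∧ ∀ g : OctL E a b c ≃ₗ[E] OctL E a b c, g ∈ GTI ρ σ ι α a b c q →
      (∀ w ∈ Bd ρ σ q, ∀ x, on w (g x - x) ≤ ε * on w x) → g ∈ RsI ρ σ ι α a b c q := by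
  have : NumberField E := H.numberField
  have : NeZero (2 : k) := ⟨two_ne_zero⟩
  have hv : Pt ρ (ep α * oup E (gl : Oct a b c) : OctL E a b c) := by
    rw [← D4X.H862.vl_eq]
    exact H408.pt_vlI H
  have hvI : Im ι (ep α * oup E (gl : Oct a b c) : OctL E a b c) =
      (-1 : E) • (ep α * oup E (gl : Oct a b c)) := by
    rw [← D4X.H862.vl_eq, neg_one_smul]
    exact H408.Im_vl H.ια
  exact open_top_of H ho (Set.toFinite _) hv hvI (H691.near_gen H (H691.pos_mem_PosC H))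
    (fun z t h1 h2 => gen2PI H h1 h2) hpart

end fin

end Vale.Agent.P011.D4Y
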